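import Mathlib.MeasureTheory.Integral.Bochner.Set
import Mathlib.MeasureTheory.Function.LpSeminorm.Basic
import Mathlib.MeasureTheory.Measure.Lebesgue.Basic
import Mathlib.MeasureTheory.Constructions.BorelSpace.Real

namespace Vale.Agent.P075

open MeasureTheory

/-- The dyadic interval `[2^k n, 2^k (n+1))` of the grid `𝒟_k` with index `n`. -/
def dyad (k : ℤ) (n : ℕ) : Set ℝ := Set.Ico ((2 : ℝ) ^ k * n) ((2 : ℝ) ^ k * (n + 1))

/-- The Haar function of the interval of `𝒟_k` with index `n`: it is `1` on the left half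
(the interval of `𝒟_{k-1}` with index `2n`), `-1` on the right half (index `2n+1`), and `0`
elsewhere. -/
noncomputable def haar (k : ℤ) (n : ℕ) (x : ℝ) : ℝ :=
  (dyad (k - 1) (2 * n)).indicator (fun _ => (1 : ℝ)) x
    - (dyad (k - 1) (2 * n + 1)).indicator (fun _ => (1 : ℝ)) x

/-- The local form `L_I(F₀,F₁,F₂)` of the triple `I` of intervals of `𝒟_k` with
indices `n 0, n 1, n 2`. -/
noncomputable def LI (k : ℤ) (n : Fin 3 → ℕ) (F : Fin 3 → ℝ × ℝ → ℝ) : ℝ :=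
  (2 : ℝ) ^ (-k) * ∫ x in dyad k (n 0) ×ˢ dyad k (n 1) ×ˢ dyad k (n 2),
    F 0 (x.1, x.2.1) * F 1 (x.2.1, x.2.2) * F 2 (x.2.2, x.1) *
      (haar k (n 0) x.1 * haar k (n 1) x.2.1 * haar k (n 2) x.2.2)

/-- The dyadic triangular form `Λ^d_{S,ε}`. -/
noncomputable def form (S : Finset ℤ) (ε : ℤ → ℝ) (F : Fin 3 → ℝ × ℝ → ℝ) : ℝ :=
  ∑ k ∈ S, ε k * ∑' n : {n : Fin 3 → ℕ // n 0 ^^^ n 1 ^^^ n 2 = 0}, LI k n.1 F

end Vale.Agent.P075
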